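import Vale.Agent.P235.H283.CXDefs
import Vale.Agent.P235.K5.H803.Split

/-!
# P235, line CX, [CX5]: centres (helper283)

The piece `B t` with root clique `Adh B t` and centres `M t` is replaced by the chain
`Adh B t ∪ {m₁}, Adh B t ∪ {m₁, m₂}, …, B t`.
-/

set_option autoImplicit false
set_option linter.all false

namespace Vale.Agent.P235.H283

open SimpleGraph Vale.Agent.P235 Vale.Agent.P235.K5 Vale.Agent.P235.H141.CX

variable {V : Type}

/-! ## The bags of a connected clique sum are connected (helper266) -/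

theorem side_conn {H : SimpleGraph V} {X Y : Set V}
    (hSc : ∀ u ∈ X, u ∈ Y → ∀ v ∈ X, v ∈ Y → u ≠ v → H.Adj u v)
    (hno : ∀ u ∈ X, u ∉ Y → ∀ v ∈ Y, v ∉ X → ¬ H.Adj u v)
    (h : (H.induce (X ∪ Y)).Preconnected) : (H.induce X).Preconnected := by
  rw [H803.preconn_iff] at h ⊢
  intro P hPX hne hcl
  by_cases hs : ∃ s ∈ P, s ∈ Y
  · obtain ⟨s, hsP, hsY⟩ := hs
    have hSP : ∀ v ∈ X, v ∈ Y → v ∈ P := by
      intro v hvX hvY
      by_cases hsv : s = v
      · exact hsv ▸ hsP
      · exact hcl s hsP v hvX (hSc s (hPX hsP) hsY v hvX hvY hsv)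
    have h1 := h (P ∪ Y) (Set.union_subset_union_left _ hPX) (hne.mono Set.subset_union_left) (by
      intro u hu v hv huv
      by_cases hvY : v ∈ Y
      · exact Or.inr hvY
      · have hvX : v ∈ X := hv.resolve_right hvY
        left
        rcases hu with hu | hu
        · exact hcl u hu v hvX huv
        · by_cases huX : u ∈ X
          · exact hcl u (hSP u huX hu) v hvX huv
          · exact absurd huv.symm (hno v hvX hvY u hu huX))
    refine hPX.antisymm fun v hv => ?_
    have h2 : v ∈ P ∪ Y := by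
      rw [h1]
      exact Or.inl hv
    rcases h2 with h2 | h2
    · exact h2
    · exact hSP v hv h2
  · push Not at hs
    have h1 := h P (hPX.trans Set.subset_union_left) hne (by
      intro u hu v hv huv
      by_cases hvX : v ∈ X
      · exact hcl u hu v hvX huv
      · exact absurd huv (hno u (hPX hu) (hs u hu) v (hv.resolve_left hvX) hvX))
    refine hPX.antisymm fun v hv => ?_
    rw [h1]
    exact Or.inl hv

theorem bef_succ (B : ℕ → Set V) (m : ℕ) : Bef B (m + 1) = Bef B m ∪ B m := by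
  ext v
  constructor
  · rintro ⟨s, hs, hv⟩
    by_cases h : s = m
    · right
      rwa [h] at hv
    · left
      exact ⟨s, by omega, hv⟩
  · rintro (⟨s, hs, hv⟩ | hv)
    · exact ⟨s, by omega, hv⟩
    · exact ⟨m, by omega, hv⟩

/-- the bags of a connected clique sum are connected -/
theorem bag_conn {k : ℕ} {H : SimpleGraph V} {n : ℕ} {B : ℕ → Set V} (h : Glued k H n B)
    (hH : H.Preconnected) : ∀ t < n, (H.induce (B t)).Preconnected := by
  have h1 : ∀ m < n, (H.induce (Bef B (m + 1))).Preconnected →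
      (H.induce (Bef B m)).Preconnected ∧ (H.induce (B m)).Preconnected := by
    intro m hm hp
    rw [bef_succ] at hp
    have hSc : ∀ u ∈ Bef B m, u ∈ B m → ∀ v ∈ Bef B m, v ∈ B m → u ≠ v → H.Adj u v :=
      fun u hu hu' v hv hv' huv => h.clique m hm u ⟨hu', hu⟩ v ⟨hv', hv⟩ huv
    refine ⟨side_conn hSc (fun u hu hu' v hv hv' huv => ?_) hp,
      side_conn (fun u hu hu' v hv hv' huv => hSc u hu' hu v hv' hv huv)
        (fun u hu hu' v hv hv' huv => ?_) (by rwa [Set.union_comm])⟩
    · exact h.sep m hm v u hv hv' hu hu' huv.symm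
    · exact h.sep m hm u v hu hu' hv hv' huv
  have h2 : ∀ j, j ≤ n → (H.induce (Bef B (n - j))).Preconnected := by
    intro j
    induction j with
    | zero =>
      intro _
      have h3 : Bef B (n - 0) = Set.univ := by
        ext v
        refine ⟨fun _ => trivial, fun _ => ?_⟩
        obtain ⟨s, hs, hv⟩ := h.cover v
        exact ⟨s, hs, hv⟩
      rw [h3, H803.preconn_iff]
      intro P _ hne hcl
      refine Set.eq_univ_of_forall fun v => ?_
      obtain ⟨p, hp⟩ := hne
      obtain ⟨w⟩ := hH p v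
      have key : ∀ (a b : V) (w : H.Walk a b), a ∈ P → b ∈ P := by
        intro a b w
        induction w with
        | nil => exact id
        | cons hab _ ih => exact fun ha => ih (hcl _ ha _ trivial hab)
      exact key _ _ w hp
    | succ j ih =>
      intro hj
      have h3 := ih (by omega)
      have h4 : n - j = (n - (j + 1)) + 1 := by omega
      rw [h4] at h3
      exact (h1 _ (by omega) h3).1
  intro t ht
  have h3 := h2 (n - (t + 1)) (by omega)
  have h4 : n - (n - (t + 1)) = t + 1 := by omega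
  rw [h4] at h3
  exact (h1 t ht h3).2

/-! ## The chain -/

/-- the bags of the chains -/
noncomputable def chB (k : ℕ) (B : ℕ → Set V) (P : ℕ → ℕ → Set V) (s : ℕ) : Set V :=
  open Classical in
  if s % (k + 1) = k then B (s / (k + 1))
  else Adh B (s / (k + 1)) ∪ P (s / (k + 1)) (s % (k + 1) + 1)

variable {k n : ℕ} {B M : ℕ → Set V} {P : ℕ → ℕ → Set V}

theorem idx_div (k t i : ℕ) (hi : i ≤ k) : ((k + 1) * t + i) / (k + 1) = t := by
  rw [Nat.mul_add_div (by omega), Nat.div_eq_of_lt (by omega), Nat.add_zero]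

theorem idx_mod (k t i : ℕ) (hi : i ≤ k) : ((k + 1) * t + i) % (k + 1) = i := by
  rw [Nat.mul_add_mod, Nat.mod_eq_of_lt (by omega)]

theorem chB_last (t : ℕ) : chB k B P ((k + 1) * t + k) = B t := by
  unfold chB
  rw [idx_div k t k le_rfl, idx_mod k t k le_rfl, if_pos rfl]

theorem chB_lt (t i : ℕ) (hi : i < k) :
    chB k B P ((k + 1) * t + i) = Adh B t ∪ P t (i + 1) := by
  unfold chB
  rw [idx_div k t i hi.le, idx_mod k t i hi.le, if_neg (by omega)]

theorem idx (k n s : ℕ) (hs : s < (k + 1) * n) :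
    ∃ t < n, ∃ i ≤ k, s = (k + 1) * t + i := by
  refine ⟨s / (k + 1), ?_, s % (k + 1), ?_, (Nat.div_add_mod _ _).symm⟩
  · exact Nat.div_lt_of_lt_mul hs
  · have := Nat.mod_lt s (show 0 < k + 1 by omega)
    omega

theorem idx_lt {k t t' i : ℕ} (h : t' < t) : (k + 1) * t' + k < (k + 1) * t + i := by
  have h1 : (k + 1) * (t' + 1) ≤ (k + 1) * t := Nat.mul_le_mul_left _ h
  have h2 : (k + 1) * (t' + 1) = (k + 1) * t' + k + 1 := by ring
  omega

/-- the marks, in steps -/
structure Steps (k n : ℕ) (B M : ℕ → Set V) (P : ℕ → ℕ → Set V) : Prop where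
  zero : ∀ t, P t 0 = ∅
  last : ∀ t < n, P t k = M t
  mono : ∀ t i j, i ≤ j → P t i ⊆ P t j
  one : ∀ t < n, ∀ i, (P t (i + 1) \ P t i).Subsingleton
  sub : ∀ t < n, ∀ i, P t i ⊆ M t
  bag : ∀ t < n, M t ⊆ B t

theorem Steps.chB_sub (S : Steps k n B M P) {t i : ℕ} (ht : t < n) (hi : i ≤ k) :
    chB k B P ((k + 1) * t + i) ⊆ B t := by
  rcases hi.lt_or_eq with h | h
  · rw [chB_lt t i h]
    rintro v (hv | hv)
    · exact hv.1
    · exact S.bag t ht (S.sub t ht _ hv)
  · subst h
    rw [chB_last]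

theorem Steps.bef (S : Steps k n B M P) {t i : ℕ} (ht : t < n) (hi : i ≤ k) :
    Bef (chB k B P) ((k + 1) * t + i) = Bef B t ∪ P t i := by
  ext v
  constructor
  · rintro ⟨s, hs, hv⟩
    obtain ⟨t', ht', i', hi', rfl⟩ := idx k (t + 1) s (by
      have h2 : (k + 1) * (t + 1) = (k + 1) * t + k + 1 := by ring
      omega)
    rcases Nat.lt_or_ge t' t with h | h
    · exact Or.inl ⟨t', h, S.chB_sub (h.trans ht) hi' hv⟩
    · have htt : t' = t := by omega
      subst htt
      have hii : i' < i := by omega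
      rw [chB_lt t' i' (by omega)] at hv
      rcases hv with hv | hv
      · exact Or.inl hv.2
      · exact Or.inr (S.mono t' _ _ hii hv)
  · rintro (⟨t', ht', hv⟩ | hv)
    · exact ⟨(k + 1) * t' + k, idx_lt ht', by rw [chB_last]; exact hv⟩
    · cases i with
      | zero =>
        rw [S.zero] at hv
        exact hv.elim
      | succ i =>
        exact ⟨(k + 1) * t + i, by omega, by
          rw [chB_lt t i (by omega)]
          exact Or.inr hv⟩

theorem Steps.adh (S : Steps k n B M P) {t i : ℕ} (ht : t < n) (hi : i ≤ k) :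
    Adh (chB k B P) ((k + 1) * t + i) = Adh B t ∪ P t i := by
  ext v
  change (v ∈ chB k B P ((k + 1) * t + i) ∧ v ∈ Bef (chB k B P) ((k + 1) * t + i)) ↔ _
  rw [S.bef ht hi]
  constructor
  · rintro ⟨h1, h2 | h2⟩
    · exact Or.inl ⟨S.chB_sub ht hi h1, h2⟩
    · exact Or.inr h2
  · rintro (h1 | h1)
    · refine ⟨?_, Or.inl h1.2⟩
      rcases hi.lt_or_eq with h | h
      · rw [chB_lt t i h]
        exact Or.inl h1
      · subst h
        rw [chB_last]
        exact h1.1
    · refine ⟨?_, Or.inr h1⟩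
      rcases hi.lt_or_eq with h | h
      · rw [chB_lt t i h]
        exact Or.inr (S.mono t _ _ (Nat.le_succ i) h1)
      · subst h
        rw [chB_last]
        exact S.bag t ht (S.sub t ht _ h1)

/-- the graph with the cliques on the roots and the centres -/
def big (H : SimpleGraph V) (n : ℕ) (B M : ℕ → Set V) : SimpleGraph V where
  Adj u v := H.Adj u v ∨ (u ≠ v ∧ ∃ t < n, u ∈ Adh B t ∪ M t ∧ v ∈ Adh B t ∪ M t)
  symm := ⟨fun u v h => by
    rcases h with h | ⟨h1, t, ht, h2, h3⟩
    · exact Or.inl h.symm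
    · exact Or.inr ⟨h1.symm, t, ht, h3, h2⟩⟩
  loopless := ⟨fun u h => by
    rcases h with h | h
    · exact H.irrefl h
    · exact h.1 rfl⟩

theorem le_big (H : SimpleGraph V) : H ≤ big H n B M := fun _ _ h => Or.inl h

/-- the new edges inside the piece `t` -/
theorem big_bag {k' : ℕ} {H : SimpleGraph V} (h : Glued k' H n B) (hM : ∀ t < n, M t ⊆ B t)
    {t : ℕ} (ht : t < n) {u v : V} (hu : u ∈ B t) (hv : v ∈ B t) (huv : (big H n B M).Adj u v) :
    H.Adj u v ∨ (u ∈ Adh B t ∪ M t ∧ v ∈ Adh B t ∪ M t) := by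
  rcases huv with huv | ⟨hne, t', ht', hu', hv'⟩
  · exact Or.inl huv
  · have hsub : Adh B t' ∪ M t' ⊆ B t' := by
      rintro x (hx | hx)
      · exact hx.1
      · exact hM t' ht' hx
    rcases Nat.lt_trichotomy t' t with h1 | h1 | h1
    · exact Or.inl (h.clique t ht u ⟨hu, t', h1, hsub hu'⟩ v ⟨hv, t', h1, hsub hv'⟩ hne)
    · subst h1
      exact Or.inr ⟨hu', hv'⟩
    · exact Or.inl (h.clique t' ht' u ⟨hsub hu', t, h1, hu⟩ v ⟨hsub hv', t, h1, hv⟩ hne)

/-- the chains are glued along cliques of the new graph -/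
theorem glued_big [Finite V] {H : SimpleGraph V} (h : Glued k H n B) (S : Steps k n B M P)
    (hMk : ∀ t < n, (M t).ncard ≤ k) :
    Glued (2 * k) (big H n B M) ((k + 1) * n) (chB k B P) where
  cover v := by
    obtain ⟨t, ht, hv⟩ := h.cover v
    refine ⟨(k + 1) * t + k, ?_, by rw [chB_last]; exact hv⟩
    exact idx_lt (i := 0) ht
  card s hs := by
    obtain ⟨t, ht, i, hi, rfl⟩ := idx k n s hs
    rw [S.adh ht hi]
    have h1 := Set.ncard_union_le (Adh B t) (P t i)
    have h2 := h.card t ht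
    have h3 : (P t i).ncard ≤ (M t).ncard := Set.ncard_le_ncard (S.sub t ht i) (Set.toFinite _)
    have h4 := hMk t ht
    omega
  clique s hs := by
    obtain ⟨t, ht, i, hi, rfl⟩ := idx k n s hs
    rw [S.adh ht hi]
    intro u hu v hv hne
    have hs' : Adh B t ∪ P t i ⊆ Adh B t ∪ M t :=
      Set.union_subset_union_right _ (S.sub t ht i)
    exact Or.inr ⟨hne, t, ht, hs' hu, hs' hv⟩
  sep s hs := by
    obtain ⟨t, ht, i, hi, rfl⟩ := idx k n s hs
    intro u v hu hu' hv hv' huv
    rw [S.bef ht hi] at hu' hv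
    have huB : u ∈ B t := S.chB_sub ht hi hu
    have huN : u ∉ Bef B t := fun hc => hu' (Or.inl hc)
    have hadh : Adh B t ∪ P t i ⊆ chB k B P ((k + 1) * t + i) := by
      rw [← S.adh ht hi]
      exact fun x hx => hx.1
    have hvB : v ∈ Bef B t := by
      rcases hv with hv | hv
      · exact hv
      · exact absurd (hadh (Or.inr hv)) hv'
    have hvN : v ∉ B t := fun hc => hv' (hadh (Or.inl ⟨hc, hvB⟩))
    have hH := h.sep t ht u v huB huN hvB hvN
    rcases huv with huv | ⟨hne, t', ht', hu2, hv2⟩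
    · exact hH huv
    · have hsub : Adh B t' ∪ M t' ⊆ B t' := by
        rintro x (hx | hx)
        · exact hx.1
        · exact S.bag t' ht' hx
      have h1 : t ≤ t' := by
        by_contra hlt
        push Not at hlt
        exact huN ⟨t', hlt, hsub hu2⟩
      rcases h1.lt_or_eq with h2 | h2
      · obtain ⟨r, hr, hvr⟩ := hvB
        exact hH (h.clique t' ht' u ⟨hsub hu2, t, h2, huB⟩ v ⟨hsub hv2, r, by omega, hvr⟩ hne)
      · subst h2
        exact hvN (hsub hv2)

theorem exists_steps [Finite V] (hM : ∀ t < n, M t ⊆ B t ∧ (M t).ncard ≤ k) :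
    ∃ P : ℕ → ℕ → Set V, Steps k n B M P := by
  classical
  have key : ∀ t, ∃ e : V → ℕ, t < n →
      (∀ x ∈ M t, e x < k) ∧ ∀ x ∈ M t, ∀ y ∈ M t, e x = e y → x = y := by
    intro t
    by_cases ht : t < n
    · have hf : (M t).Finite := Set.toFinite _
      have hc : hf.toFinset.card = (M t).ncard := (Set.ncard_eq_toFinset_card (M t) hf).symm
      let e := hf.toFinset.equivFinOfCardEq hc
      refine ⟨fun x => if hx : x ∈ M t then (e ⟨x, hf.mem_toFinset.2 hx⟩).1 else 0,
        fun _ => ⟨fun x hx => ?_, fun x hx y hy hxy => ?_⟩⟩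
      · simp only [dif_pos hx]
        exact (e _).2.trans_le (hM t ht).2
      · simp only [dif_pos hx, dif_pos hy] at hxy
        have := e.injective (Fin.ext hxy)
        exact congrArg Subtype.val this
    · exact ⟨fun _ => 0, fun h => absurd h ht⟩
  choose e he using key
  refine ⟨fun t i => {x | x ∈ M t ∧ e t x < i}, fun t => ?_, fun t ht => ?_, fun t i j hij => ?_,
    fun t ht i => ?_, fun t ht i x hx => hx.1, fun t ht => (hM t ht).1⟩
  · ext x
    simp
  · ext x
    exact ⟨fun hx => hx.1, fun hx => ⟨hx, (he t ht).1 x hx⟩⟩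
  · rintro x ⟨h1, h2⟩
    exact ⟨h1, h2.trans_le hij⟩
  · rintro x ⟨⟨h1, h2⟩, h3⟩ y ⟨⟨h4, h5⟩, h6⟩
    have h7 : e t x = i := by
      have : ¬ e t x < i := fun hc => h3 ⟨h1, hc⟩
      omega
    have h8 : e t y = i := by
      have : ¬ e t y < i := fun hc => h6 ⟨h4, hc⟩
      omega
    exact (he t ht).2 x h1 y h4 (h7.trans h8.symm)

/-- an empty graph -/
theorem distortion_empty {W : Type} [IsEmpty W] (G : SimpleGraph W) (K : ℝ) :
    DistortionLE G K := by
  intro ℓ _
  exact ⟨PUnit, inferInstance, 0, fun x => isEmptyElim x, fun x => isEmptyElim x⟩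

theorem DistortionLE.mono' {W : Type} {G : SimpleGraph W} {K K' : ℝ} (h : DistortionLE G K)
    (hK : K ≤ K') : DistortionLE G K' := by
  intro ℓ hℓ
  obtain ⟨Ω, mΩ, μ, f, hf⟩ := h ℓ hℓ
  refine ⟨Ω, mΩ, μ, f, fun x y => ⟨(hf x y).1, ?_⟩⟩
  have h0 : 0 ≤ pathDist G ℓ x y := by
    unfold pathDist
    refine Real.iInf_nonneg fun w => ?_
    refine List.sum_nonneg fun a ha => ?_
    obtain ⟨e, he, rfl⟩ := List.mem_map.1 ha
    exact (hℓ e (w.edges_subset_edgeSet he)).le
  exact (hf x y).2.trans (mul_le_mul_of_nonneg_right hK h0)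

/-- **[CX5]** -/
theorem cx5 (h6 : CX6Stmt) (hA : AddStmt) (hS : SmallStmt) : CX5Stmt := by
  classical
  intro C k hC
  obtain ⟨K1, hK1, hadd⟩ := hA C (2 * k) hC
  obtain ⟨K2, hK2, hsm⟩ := hS (2 * k)
  obtain ⟨K, hK, hmain⟩ := h6 (max K1 K2) (2 * k) (hK1.trans (le_max_left _ _))
  refine ⟨K, hK, fun V _ G H n B M hGH hG h hd hM hpar => ?_⟩
  obtain ⟨P, S⟩ := exists_steps hM
  have hg := glued_big h S fun t ht => (hM t ht).2
  have hHc : H.Connected := hG.mono hGH
  refine hmain V G (big H n B M) ((k + 1) * n) (chB k B P) (hGH.trans (le_big H)) hG hg ?_ ?_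
  · -- the pieces
    intro s hs
    obtain ⟨t, ht, i, hi, rfl⟩ := idx k n s hs
    have hN : (Adh B t ∪ M t).ncard ≤ 2 * k := by
      have h1 := Set.ncard_union_le (Adh B t) (M t)
      have h2 := h.card t ht
      have h3 := (hM t ht).2
      omega
    rcases isEmpty_or_nonempty (chB k B P ((k + 1) * t + i)) with hE | hne
    · exact distortion_empty _ _
    rcases hi.lt_or_eq with hi' | hi'
    · have hs' : chB k B P ((k + 1) * t + i) ⊆ Adh B t ∪ M t := by
        rw [chB_lt t i hi']
        exact Set.union_subset_union_right _ (S.sub t ht _)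
      refine DistortionLE.mono' (hsm _ _ ?_ ?_) (le_max_right _ _)
      · refine ⟨fun a b => ?_⟩
        by_cases hab : a = b
        · rw [hab]
        · have hadj : ((big H n B M).induce (chB k B P ((k + 1) * t + i))).Adj a b :=
            Or.inr ⟨fun hc => hab (Subtype.ext hc), t, ht, hs' a.2, hs' b.2⟩
          exact hadj.reachable
      · rw [Nat.card_coe_set_eq]
        exact (Set.ncard_le_ncard hs' (Set.toFinite _)).trans hN
    · subst hi'
      rw [chB_last] at hne ⊢
      refine DistortionLE.mono' (hadd (B t) (H.induce (B t)) _ {x | (x : V) ∈ Adh B t ∪ M t}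
        ⟨bag_conn h hHc.preconnected t ht⟩ (fun a b hab => le_big H hab) ?_ ?_ (hd t ht))
        (le_max_left _ _)
      · intro a b hab
        exact big_bag h S.bag ht a.2 b.2 hab
      · refine le_trans ?_ hN
        exact Set.ncard_le_ncard_of_injOn Subtype.val (fun x hx => hx)
          Subtype.val_injective.injOn (Set.toFinite _)
  · -- the parents
    intro s hs hs0
    obtain ⟨t, ht, i, hi, rfl⟩ := idx k n s hs
    cases i with
    | zero =>
      have ht0 : 0 < t := by
        rcases Nat.eq_zero_or_pos t with h0 | h0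
        · rw [h0] at hs0
          omega
        · exact h0
      obtain ⟨t', ht', h1, h2⟩ := hpar t ht ht0
      refine ⟨(k + 1) * t' + k, idx_lt ht', ?_, ?_⟩
      · rw [S.adh ht hi, S.zero, Set.union_empty, chB_last]
        exact h1
      · rw [S.adh ht hi, S.zero, Set.union_empty, S.adh (ht'.trans ht) le_rfl,
          S.last t' (ht'.trans ht)]
        exact h2
    | succ i =>
      refine ⟨(k + 1) * t + i, by omega, ?_, ?_⟩
      · rw [S.adh ht hi, chB_lt t i (by omega)]
      · rw [S.adh ht hi, S.adh ht (by omega)]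
        refine (S.one t ht i).anti ?_
        rintro x ⟨hx | hx, hx'⟩
        · exact absurd (Or.inl hx) hx'
        · exact ⟨hx, fun hc => hx' (Or.inr hc)⟩

end Vale.Agent.P235.H283
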