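import Vale.Agent.P235.H141.CX.Defs

/-!
# P235, line CX, rows [CX5], [CX6]: literals (helper283)
-/

set_option autoImplicit false
set_option linter.all false

namespace Vale.Agent.P235.H141.CX

open SimpleGraph Vale.Agent.P235 Vale.Agent.P235.K5

/-- edges inside a set of at most `j` vertices are added to a connected graph -/
def AddStmt : Prop :=
  ∀ (C : ℝ) (j : ℕ), 1 ≤ C → ∃ K : ℝ, 1 ≤ K ∧ ∀ (V : Type) [Finite V] (G G' : SimpleGraph V)
    (N : Set V), G.Connected → G ≤ G' → (∀ u v, G'.Adj u v → G.Adj u v ∨ (u ∈ N ∧ v ∈ N)) →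
      N.ncard ≤ j → DistortionLE G C → DistortionLE G' K

/-- small graphs -/
def SmallStmt : Prop :=
  ∀ j : ℕ, ∃ K : ℝ, 1 ≤ K ∧ ∀ (V : Type) [Finite V] (G : SimpleGraph V), G.Connected →
    Nat.card V ≤ j → DistortionLE G K

/-- **[CX6]** `CXStmt` without the condition on new vertices -/
def CX6Stmt : Prop :=
  ∀ (C : ℝ) (k : ℕ), 1 ≤ C → ∃ K : ℝ, 1 ≤ K ∧ ∀ (V : Type) [Finite V] (G H : SimpleGraph V)
    (n : ℕ) (B : ℕ → Set V), G ≤ H → G.Connected → Glued k H n B →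
      (∀ t < n, DistortionLE (H.induce (B t)) C) →
      (∀ u < n, 0 < u → ∃ t < u, Adh B u ⊆ B t ∧ (Adh B u \ Adh B t).Subsingleton) →
        DistortionLE G K

/-- **[CX5]** clique sums of graphs with `c₁ ≤ C`; every gluing clique has at most one vertex
outside the `k` centres `M t` and the root clique of the piece it is glued to -/
def CX5Stmt : Prop :=
  ∀ (C : ℝ) (k : ℕ), 1 ≤ C → ∃ K : ℝ, 1 ≤ K ∧ ∀ (V : Type) [Finite V] (G H : SimpleGraph V)
    (n : ℕ) (B M : ℕ → Set V), G ≤ H → G.Connected → Glued k H n B →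
      (∀ t < n, DistortionLE (H.induce (B t)) C) → (∀ t < n, M t ⊆ B t ∧ (M t).ncard ≤ k) →
      (∀ u < n, 0 < u → ∃ t < u, Adh B u ⊆ B t ∧
        (Adh B u \ (Adh B t ∪ M t)).Subsingleton) → DistortionLE G K

end Vale.Agent.P235.H141.CX
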