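import Vale.Agent.P235.H283.CX5
import Vale.Agent.P235.K5.H964.CX6
import Vale.Agent.P235.XC.H76.Small

/-!
# P235, line CX: the input `CenStmt` of helper45 from `CXStmt` and `AddStmt` (helper283)
-/

set_option autoImplicit false
set_option linter.all false

namespace Vale.Agent.P235.H283

open SimpleGraph Vale.Agent.P235 Vale.Agent.P235.K5 Vale.Agent.P235.H141.CX

/-- in the letters of `Vale.Agent.P235.H45.Star.CenStmt` -/
theorem cen (hX : CXStmt) (hA : AddStmt) :
    ∀ (C : ℝ) (k : ℕ), 1 ≤ C → ∃ K : ℝ, 1 ≤ K ∧ ∀ (V : Type) [Finite V] (G H : SimpleGraph V)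
      (n : ℕ) (B M : ℕ → Set V), G ≤ H → G.Connected → Glued k H n B →
        (∀ t < n, (M t).ncard ≤ k) →
        (∀ t < n, (H.induce (B t)).Connected → DistortionLE (H.induce (B t)) C) →
        (∀ u < n, 0 < u → ∃ t < u, Adh B u ⊆ B t ∧ (Adh B u \ (M t ∪ Adh B t)).Subsingleton) →
          DistortionLE G K := by
  intro C k hC
  obtain ⟨K, hK, hmain⟩ := cx5 (K5.H964.cx6 hX) hA CX.H76.smallStmt C k hC
  refine ⟨K, hK, fun V _ G H n B M hGH hG h hMk hd hpar => ?_⟩
  refine hmain V G H n B (fun t => M t ∩ B t) hGH hG h ?_ ?_ ?_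
  · intro t ht
    rcases isEmpty_or_nonempty (B t) with hE | hne
    · exact distortion_empty _ _
    · exact hd t ht ⟨bag_conn h (hG.mono hGH).preconnected t ht⟩
  · intro t ht
    exact ⟨Set.inter_subset_right,
      (Set.ncard_le_ncard Set.inter_subset_left (Set.toFinite _)).trans (hMk t ht)⟩
  · intro u hu h0
    obtain ⟨t, ht, h1, h2⟩ := hpar u hu h0
    refine ⟨t, ht, h1, h2.anti ?_⟩
    rintro x ⟨hx, hx'⟩
    refine ⟨hx, ?_⟩
    rintro (hc | hc)
    · exact hx' (Or.inr ⟨hc, h1 hx⟩)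
    · exact hx' (Or.inl hc)

end Vale.Agent.P235.H283
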